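import Vale.Agent.N251.Top

/-!
# P251: chromatic splitting fails for all primes `p` and all `p ≤ n` with `n² < 2 (p - 1)²`

Let `p` be a prime, `p ≤ n` and `n² < 2 (p - 1)²`. (1) In each pair `(T, S)` the canonical map
`i_n : L_{n-1} S_p ⟶ L_{n-1} L_{K(n)} S_p` has no retraction, is not the inclusion of a wedge
summand, and is not injective on `π_m`, `m = (p - 1)² (2 p² - 2 p - 2)`. The same holds with
`L_{K(p-1)}` in the place of `L_{n-1}`. (2) The hypotheses of (1) are met in the localization of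
orthogonal spectra at the `π_*`-isomorphisms, so (1) is not vacuous.
-/

namespace Vale.Agent.Results.P251.A0Range

open Vale.Agent.P251.St (SHCat Susp)
open Vale.Agent.P251.St.SHCat Vale.Agent.P251CX Vale.Agent.P251CY Vale.Agent.N251

theorem result : ∀ p n : ℕ, p.Prime → p ≤ n → n ^ 2 < 2 * (p - 1) ^ 2 →
    (∀ (T : SHCat) (S : Susp T) (K E : RingSp T), N.IsMorava S K p n →
      (∃ (o : Oriented S E) (φ : GHom S p E), N.IsJW p (n - 1) o φ) ∨ N.IsMorava S E p (p - 1) →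
      ∀ (X Y : T.C) (i : Hom X Y), N.IsCan p E.obj K.obj i →
      (¬ ∃ r : Hom Y X, comp i r = ident X) ∧
      (¬ ∃ (B : T.C) (k : Hom B Y), ∀ (V : T.C) (x : Hom X V) (b : Hom B V),
        ∃! u : Hom Y V, comp i u = x ∧ comp k u = b) ∧
      ∃ (m : ℤ) (f : Hom (sphere T m) X), m = (p - 1) ^ 2 * (2 * p ^ 2 - 2 * p - 2) ∧
        f ≠ nul _ _ ∧ comp f i = nul _ _) ∧
    ∃ (T : SHCat) (S : Susp T) (K E F : RingSp T) (o : Oriented S E) (φ : GHom S p E),
      Nonempty (IsSH T S.toSuspData) ∧ N.IsMorava S K p n ∧ N.IsJW p (n - 1) o φ ∧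
      N.IsMorava S F p (p - 1) ∧ (∃ (X Y : T.C) (i : Hom X Y), N.IsCan p E.obj K.obj i) ∧
      ∃ (X Y : T.C) (i : Hom X Y), N.IsCan p F.obj K.obj i := by
  intro p n hp h1 h2
  refine ⟨fun T S => split_fails S p n hp h1 h2, ?_⟩
  have h3 := hp.two_le
  have h4 : p ≠ 2 := by
    rintro rfl
    nlinarith
  obtain ⟨T, S, h⟩ := exists_isSH
  obtain ⟨K, hK⟩ := (exists_objects S p n hp (by omega)).1 h4
  obtain ⟨E, o, φ, hE⟩ := (exists_objects S p (n - 1) hp (by omega)).2
  obtain ⟨F, hF⟩ := (exists_objects S p (p - 1) hp (by omega)).1 h4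
  exact ⟨T, S, K, E, F, o, φ, h, hK, hE, hF, exists_can T p _ _, exists_can T p _ _⟩

end Vale.Agent.Results.P251.A0Range
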